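import Mathlib

set_option autoImplicit false

namespace Vale.Agent.Lib.P330

/-- A gate of a generalized circuit, without its output node: the circuit is a map sending
each node to the gate whose output it is, if any. -/
inductive Gate (V : Type) : Type where
  | const (α : ℚ) : Gate V
  | scale (α : ℚ) (a : V) : Gate V
  | copy (a : V) : Gate V
  | add (a b : V) : Gate V
  | sub (a b : V) : Gate V
  | less (a b : V) : Gate V
  | neg (a : V) : Gate V
  | disj (a b : V) : Gate V
  | conj (a b : V) : Gate V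

/-- gate parameters lie in the unit interval -/
def Gate.ParamOK {V : Type} : Gate V → Prop
  | .const α => 0 ≤ α ∧ α ≤ 1
  | .scale α _ => 0 ≤ α ∧ α ≤ 1
  | _ => True

/-- the gate `g` with output node `z` is `ε`-satisfied by the assignment `x` -/
def Sat {V : Type} (ε : ℚ) (x : V → ℚ) (z : V) : Gate V → Prop
  | .const α => |x z - α| ≤ ε
  | .scale α a => |x z - α * x a| ≤ ε
  | .copy a => |x z - x a| ≤ ε
  | .add a b => |x z - min (x a + x b) 1| ≤ ε
  | .sub a b => |x z - max (x a - x b) 0| ≤ ε
  | .less a b => (x a < x b - ε → 1 - ε ≤ x z) ∧ (x b + ε < x a → x z ≤ ε)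
  | .neg a => (x a ≤ ε → 1 - ε ≤ x z) ∧ (1 - ε ≤ x a → x z ≤ ε)
  | .disj a b => ((1 - ε ≤ x a ∨ 1 - ε ≤ x b) → 1 - ε ≤ x z) ∧ ((x a ≤ ε ∧ x b ≤ ε) → x z ≤ ε)
  | .conj a b => ((1 - ε ≤ x a ∧ 1 - ε ≤ x b) → 1 - ε ≤ x z) ∧ ((x a ≤ ε ∨ x b ≤ ε) → x z ≤ ε)

/-- One synchronous round of local updates. Outputs of arithmetic gates get a value depending
only on the gate itself; outputs of comparison and logic gates get the value forced by the
current values of their inputs, and `1/2` when nothing is forced. -/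
def step {V : Type} (ε : ℚ) (G : V → Option (Gate V)) (x : V → ℚ) (z : V) : ℚ :=
  match G z with
  | none => 1 / 2
  | some (.const α) => max ε (min α (1 - ε))
  | some (.scale α _) => max ε (α / 2)
  | some (.copy _) => 1 / 2
  | some (.add _ _) => 1 - ε
  | some (.sub _ _) => ε
  | some (.less a b) => if x a < x b - ε then 1 - ε else if x b + ε < x a then ε else 1 / 2
  | some (.neg a) => if x a ≤ ε then 1 - ε else if 1 - ε ≤ x a then ε else 1 / 2
  | some (.disj a b) =>
      if 1 - ε ≤ x a ∨ 1 - ε ≤ x b then 1 - ε else if x a ≤ ε ∧ x b ≤ ε then ε else 1 / 2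
  | some (.conj a b) =>
      if 1 - ε ≤ x a ∧ 1 - ε ≤ x b then 1 - ε else if x a ≤ ε ∨ x b ≤ ε then ε else 1 / 2

/-- The explicit assignment: for `ε < 1/2`, run `|V| + 1` rounds of `step` from the constant
assignment `1/2`; for `ε ≥ 1/2`, the constant assignment `1/2`. -/
def solve {V : Type} [Fintype V] (ε : ℚ) (G : V → Option (Gate V)) : V → ℚ :=
  if ε < 1 / 2 then (step ε G)^[Fintype.card V + 1] (fun _ => 1 / 2) else fun _ => 1 / 2

end Vale.Agent.Lib.P330
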