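import Vale.Agent.Lib.P330.Defs

set_option autoImplicit false

namespace Vale.Agent.Lib.P330

variable {V : Type}

/-- Exact evaluation of a gate on the grid `{0, 1/m, ..., 1}`: the natural number `k ≤ m`
stands for the value `k/m`, and results are rounded down to the grid. -/
def evalGrid (m : ℕ) (x : V → ℕ) : Gate V → ℕ
  | .const α => ⌊α * (m : ℚ)⌋₊
  | .scale α a => ⌊α * (x a : ℚ)⌋₊
  | .copy a => x a
  | .add a b => min (x a + x b) m
  | .sub a b => x a - x b
  | .less a b => if x a < x b then m else 0
  | .neg a => m - x a
  | .disj a b => max (x a) (x b)
  | .conj a b => min (x a) (x b)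

/-- The rank condition for the gate `g` with output node `z`: inputs on which the gate depends
monotonically have rank at most `r z`; inputs on which it depends antitonically (second input of
Subtract, first input of Less, the input of Not) have rank strictly below `r z`. -/
def RankOK (r : V → ℕ) (z : V) : Gate V → Prop
  | .const _ => True
  | .scale _ a => r a ≤ r z
  | .copy a => r a ≤ r z
  | .add a b => r a ≤ r z ∧ r b ≤ r z
  | .sub a b => r a ≤ r z ∧ r b < r z
  | .less a b => r a < r z ∧ r b ≤ r z
  | .neg a => r a < r z
  | .disj a b => r a ≤ r z ∧ r b ≤ r z
  | .conj a b => r a ≤ r z ∧ r b ≤ r z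

/-- One synchronous round on level `k`: every node of rank `k` outside `F` that is the output
of a gate is recomputed from the current values; all other nodes keep their values. -/
def levelStep [DecidableEq V] (G : V → Option (Gate V)) (F : Finset V) (r : V → ℕ) (m k : ℕ)
    (x : V → ℕ) (z : V) : ℕ :=
  if r z = k ∧ z ∉ F then
    match G z with
    | some g => evalGrid m x g
    | none => x z
  else x z

/-- The layered procedure: start from the all-zero assignment; for `k = 0, 1, ...` run
`|V| * m` rounds of `levelStep` on level `k`. `layered G F r m N` is the state after the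
levels `0, ..., N-1` have been processed. -/
def layered [Fintype V] [DecidableEq V] (G : V → Option (Gate V)) (F : Finset V) (r : V → ℕ)
    (m : ℕ) : ℕ → V → ℕ
  | 0 => fun _ => 0
  | k + 1 => (levelStep G F r m k)^[Fintype.card V * m] (layered G F r m k)

end Vale.Agent.Lib.P330
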