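import Vale.Agent.Lib.P330.Layered

set_option autoImplicit false

namespace Vale.Agent.Lib.P330

variable {V : Type}

lemma iterate_fixed [Fintype V] (Φ : (V → ℕ) → V → ℕ) (m : ℕ) (P : (V → ℕ) → Prop) (x : V → ℕ)
    (hP0 : P x) (hPstep : ∀ y, P y → P (Φ y)) (hbound : ∀ y, P y → ∀ z, y z ≤ m)
    (hinc : ∀ z, x z ≤ Φ x z) (hmono : ∀ y y', P y → P y' → (∀ z, y z ≤ y' z) → ∀ z, Φ y z ≤ Φ y' z) :
    Φ (Φ^[Fintype.card V * m] x) = Φ^[Fintype.card V * m] x := by
  have hP : ∀ j, P (Φ^[j] x) := by
    intro j
    induction j with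
    | zero => simpa using hP0
    | succ j ih => rw [Function.iterate_succ_apply']; exact hPstep _ ih
  have hchain : ∀ j, ∀ z, Φ^[j] x z ≤ Φ (Φ^[j] x) z := by
    intro j
    induction j with
    | zero => simpa using hinc
    | succ j ih =>
      rw [Function.iterate_succ_apply']
      exact hmono _ _ (hP j) (hPstep _ (hP j)) ih
  have hQ : ∀ j, Φ (Φ^[j] x) = Φ^[j] x ∨ j ≤ ∑ z, Φ^[j] x z := by
    intro j
    induction j with
    | zero => right; exact Nat.zero_le _
    | succ j ih =>
      by_cases hfix : Φ (Φ^[j] x) = Φ^[j] x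
      · left
        rw [Function.iterate_succ_apply', hfix]
        exact hfix
      · right
        rcases ih with ih | ih
        · exact absurd ih hfix
        · have hle := hchain j
          obtain ⟨z, hz⟩ : ∃ z, Φ^[j] x z < Φ (Φ^[j] x) z := by
            by_contra hcon
            apply hfix
            funext z
            exact le_antisymm (not_lt.mp (fun hlt => hcon ⟨z, hlt⟩)) (hle z)
          have hlt : ∑ z, Φ^[j] x z < ∑ z, Φ (Φ^[j] x) z :=
            Finset.sum_lt_sum (fun z _ => hle z) ⟨z, Finset.mem_univ z, hz⟩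
          rw [Function.iterate_succ_apply']
          omega
  rcases hQ (Fintype.card V * m) with h | h
  · exact h
  · have hb := hbound _ (hP (Fintype.card V * m))
    have hsum : ∑ z, Φ^[Fintype.card V * m] x z = ∑ _z : V, m := by
      apply le_antisymm (Finset.sum_le_sum (fun z _ => hb z))
      simpa using h
    have hall : ∀ z, Φ^[Fintype.card V * m] x z = m := by
      intro z
      exact (Finset.sum_eq_sum_iff_of_le (fun z _ => hb z)).mp hsum z (Finset.mem_univ z)
    funext z
    apply le_antisymm
    · have := hbound _ (hPstep _ (hP (Fintype.card V * m))) z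
      rw [hall z]
      exact this
    · exact hchain _ z

lemma evalGrid_le (m : ℕ) (y : V → ℕ) (hy : ∀ z, y z ≤ m) (g : Gate V) (hp : g.ParamOK) :
    evalGrid m y g ≤ m := by
  cases g with
  | const α =>
    simp only [Gate.ParamOK] at hp
    simp only [evalGrid]
    apply Nat.floor_le_of_le
    have : (0 : ℚ) ≤ (m : ℚ) := Nat.cast_nonneg m
    nlinarith [hp.2]
  | scale α a =>
    simp only [Gate.ParamOK] at hp
    simp only [evalGrid]
    apply Nat.floor_le_of_le
    have h0 : (0 : ℚ) ≤ (y a : ℚ) := Nat.cast_nonneg _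
    have h1 : (y a : ℚ) ≤ (m : ℚ) := by exact_mod_cast hy a
    nlinarith [hp.2]
  | copy a => exact hy a
  | add a b => exact min_le_right _ _
  | sub a b => exact le_trans (Nat.sub_le _ _) (hy a)
  | less a b => simp only [evalGrid]; split_ifs <;> omega
  | neg a => exact Nat.sub_le _ _
  | disj a b => exact max_le (hy a) (hy b)
  | conj a b => exact le_trans (min_le_left _ _) (hy a)

lemma evalGrid_mono (m : ℕ) (r : V → ℕ) (z : V) (y y' : V → ℕ) (g : Gate V) (hp : g.ParamOK)
    (hr : RankOK r z g) (hle : ∀ a, y a ≤ y' a) (heq : ∀ b, r b < r z → y b = y' b) :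
    evalGrid m y g ≤ evalGrid m y' g := by
  cases g with
  | const α => exact le_refl _
  | scale α a =>
    simp only [Gate.ParamOK] at hp
    simp only [evalGrid]
    apply Nat.floor_le_floor
    have h1 : (y a : ℚ) ≤ (y' a : ℚ) := by exact_mod_cast hle a
    exact mul_le_mul_of_nonneg_left h1 hp.1
  | copy a => exact hle a
  | add a b =>
    simp only [evalGrid]
    exact min_le_min (Nat.add_le_add (hle a) (hle b)) (le_refl _)
  | sub a b =>
    simp only [RankOK] at hr
    simp only [evalGrid]
    rw [heq b hr.2]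
    exact Nat.sub_le_sub_right (hle a) _
  | less a b =>
    simp only [RankOK] at hr
    simp only [evalGrid]
    rw [heq a hr.1]
    have := hle b
    split_ifs <;> omega
  | neg a =>
    simp only [RankOK] at hr
    simp only [evalGrid]
    rw [heq a hr]
  | disj a b =>
    simp only [evalGrid]
    exact max_le_max (hle a) (hle b)
  | conj a b =>
    simp only [evalGrid]
    exact min_le_min (hle a) (hle b)

lemma evalGrid_congr (m : ℕ) (r : V → ℕ) (z : V) (y y' : V → ℕ) (g : Gate V)
    (hr : RankOK r z g) (heq : ∀ a, r a ≤ r z → y a = y' a) :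
    evalGrid m y g = evalGrid m y' g := by
  cases g with
  | const α => rfl
  | scale α a => simp only [RankOK] at hr; simp only [evalGrid]; rw [heq a hr]
  | copy a => simp only [RankOK] at hr; simp only [evalGrid]; rw [heq a hr]
  | add a b => simp only [RankOK] at hr; simp only [evalGrid]; rw [heq a hr.1, heq b hr.2]
  | sub a b => simp only [RankOK] at hr; simp only [evalGrid]; rw [heq a hr.1, heq b (le_of_lt hr.2)]
  | less a b => simp only [RankOK] at hr; simp only [evalGrid]; rw [heq a (le_of_lt hr.1), heq b hr.2]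
  | neg a => simp only [RankOK] at hr; simp only [evalGrid]; rw [heq a (le_of_lt hr)]
  | disj a b => simp only [RankOK] at hr; simp only [evalGrid]; rw [heq a hr.1, heq b hr.2]
  | conj a b => simp only [RankOK] at hr; simp only [evalGrid]; rw [heq a hr.1, heq b hr.2]

/-- the invariant after the levels below `k` have been processed -/
structure Inv (G : V → Option (Gate V)) (F : Finset V) (r : V → ℕ) (m k : ℕ) (x : V → ℕ) : Prop where
  bound : ∀ z, x z ≤ m
  zero : ∀ z, k ≤ r z → x z = 0
  fixed : ∀ z, z ∉ F → r z < k → ∀ g, G z = some g → x z = evalGrid m x g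

lemma inv_succ [Fintype V] [DecidableEq V] (G : V → Option (Gate V))
    (hG : ∀ z g, G z = some g → g.ParamOK) (F : Finset V) (r : V → ℕ)
    (hr : ∀ z, z ∉ F → ∀ g, G z = some g → RankOK r z g) (m k : ℕ) (x : V → ℕ)
    (hx : Inv G F r m k x) :
    Inv G F r m (k + 1) ((levelStep G F r m k)^[Fintype.card V * m] x) := by
  set Φ := levelStep G F r m k with hΦ
  set P : (V → ℕ) → Prop := fun y => (∀ z, y z ≤ m) ∧ (∀ z, ¬ (r z = k ∧ z ∉ F) → y z = x z) with hPdef
  have hPstep : ∀ y, P y → P (Φ y) := by
    intro y hy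
    constructor
    · intro z
      simp only [hΦ, levelStep]
      split_ifs with hlev
      · cases hGz : G z with
        | none => exact hy.1 z
        | some g => exact evalGrid_le m y hy.1 g (hG z g hGz)
      · exact hy.1 z
    · intro z hz
      simp only [hΦ, levelStep]
      rw [if_neg hz]
      exact hy.2 z hz
  have hP0 : P x := ⟨hx.bound, fun z _ => rfl⟩
  have hinc : ∀ z, x z ≤ Φ x z := by
    intro z
    simp only [hΦ, levelStep]
    split_ifs with hlev
    · rw [hx.zero z (le_of_eq hlev.1.symm)]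
      exact Nat.zero_le _
    · exact le_refl _
  have hmono : ∀ y y', P y → P y' → (∀ z, y z ≤ y' z) → ∀ z, Φ y z ≤ Φ y' z := by
    intro y y' hy hy' hle z
    simp only [hΦ, levelStep]
    split_ifs with hlev
    · cases hGz : G z with
      | none => exact hle z
      | some g =>
        apply evalGrid_mono m r z y y' g (hG z g hGz) (hr z hlev.2 g hGz) hle
        intro b hb
        have hoff : ¬ (r b = k ∧ b ∉ F) := by
          intro h
          rw [h.1, hlev.1] at hb
          exact lt_irrefl _ hb
        rw [hy.2 b hoff, hy'.2 b hoff]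
    · exact hle z
  have hfix := iterate_fixed Φ m P x hP0 hPstep (fun y hy => hy.1) hinc hmono
  have hPy : P (Φ^[Fintype.card V * m] x) := by
    have : ∀ j, P (Φ^[j] x) := by
      intro j
      induction j with
      | zero => simpa using hP0
      | succ j ih => rw [Function.iterate_succ_apply']; exact hPstep _ ih
    exact this _
  set y := Φ^[Fintype.card V * m] x with hy
  refine ⟨hPy.1, ?_, ?_⟩
  · intro z hz
    have hoff : ¬ (r z = k ∧ z ∉ F) := by
      intro h
      omega
    rw [hPy.2 z hoff]
    exact hx.zero z (by omega)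
  · intro z hzF hrz g hGz
    by_cases hk : r z = k
    · have h1 : Φ y z = evalGrid m y g := by
        simp only [hΦ, levelStep]
        rw [if_pos ⟨hk, hzF⟩, hGz]
      rw [← h1, hfix]
    · have hoff : ¬ (r z = k ∧ z ∉ F) := fun h => hk h.1
      have hlt : r z < k := by omega
      rw [hPy.2 z hoff, hx.fixed z hzF hlt g hGz]
      apply evalGrid_congr m r z x y g (hr z hzF g hGz)
      intro a ha
      have hoffa : ¬ (r a = k ∧ a ∉ F) := by
        intro h
        omega
      rw [hPy.2 a hoffa]

lemma inv_layered [Fintype V] [DecidableEq V] (G : V → Option (Gate V))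
    (hG : ∀ z g, G z = some g → g.ParamOK) (F : Finset V) (r : V → ℕ)
    (hr : ∀ z, z ∉ F → ∀ g, G z = some g → RankOK r z g) (m k : ℕ) :
    Inv G F r m k (layered G F r m k) := by
  induction k with
  | zero =>
    exact ⟨fun z => Nat.zero_le _, fun z _ => rfl, fun z _ h => absurd h (Nat.not_lt_zero _)⟩
  | succ k ih =>
    exact inv_succ G hG F r hr m k _ ih

lemma sat_of_fixed (m : ℕ) (hm : 0 < m) (ε : ℚ) (hε : 1 / (m : ℚ) ≤ ε) (x : V → ℕ)
    (hb : ∀ z, x z ≤ m) (z : V) (g : Gate V) (hp : g.ParamOK) (hfix : x z = evalGrid m x g) :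
    Sat ε (fun v => (x v : ℚ) / (m : ℚ)) z g := by
  have hM : (0 : ℚ) < (m : ℚ) := by exact_mod_cast hm
  have hε0 : 0 < ε := lt_of_lt_of_le (by positivity) hε
  cases g with
  | const α =>
    simp only [Gate.ParamOK] at hp
    simp only [evalGrid] at hfix
    simp only [Sat]
    rw [hfix]
    have h1 : ((⌊α * (m : ℚ)⌋₊ : ℕ) : ℚ) ≤ α * m := Nat.floor_le (by nlinarith [hp.1])
    have h2 : α * m < ((⌊α * (m : ℚ)⌋₊ : ℕ) : ℚ) + 1 := Nat.lt_floor_add_one _
    have e1 : ((⌊α * (m : ℚ)⌋₊ : ℕ) : ℚ) / m ≤ α := by rw [div_le_iff₀ hM]; exact h1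
    have e2 : α - 1 / (m : ℚ) < ((⌊α * (m : ℚ)⌋₊ : ℕ) : ℚ) / m := by
      rw [lt_div_iff₀ hM]
      have : (α - 1 / (m : ℚ)) * m = α * m - 1 := by field_simp
      linarith
    rw [abs_le]
    constructor <;> linarith
  | scale α a =>
    simp only [Gate.ParamOK] at hp
    simp only [evalGrid] at hfix
    simp only [Sat]
    rw [hfix]
    have hxa : (0 : ℚ) ≤ (x a : ℚ) := Nat.cast_nonneg _
    have h1 : ((⌊α * (x a : ℚ)⌋₊ : ℕ) : ℚ) ≤ α * x a := Nat.floor_le (mul_nonneg hp.1 hxa)
    have h2 : α * x a < ((⌊α * (x a : ℚ)⌋₊ : ℕ) : ℚ) + 1 := Nat.lt_floor_add_one _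
    have e0 : α * ((x a : ℚ) / m) = α * x a / m := by ring
    have e1 : ((⌊α * (x a : ℚ)⌋₊ : ℕ) : ℚ) / m ≤ α * x a / m := by
      exact div_le_div_of_nonneg_right h1 (le_of_lt hM)
    have e2 : α * x a / m - 1 / (m : ℚ) < ((⌊α * (x a : ℚ)⌋₊ : ℕ) : ℚ) / m := by
      rw [← sub_div]
      exact div_lt_div_of_pos_right (by linarith) hM
    rw [e0, abs_le]
    constructor <;> linarith
  | copy a =>
    simp only [evalGrid] at hfix
    simp only [Sat]
    rw [hfix, sub_self, abs_zero]
    exact le_of_lt hε0
  | add a b =>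
    simp only [evalGrid] at hfix
    simp only [Sat]
    rw [hfix]
    have e : ((min (x a + x b) m : ℕ) : ℚ) / m = min ((x a : ℚ) / m + (x b : ℚ) / m) 1 := by
      rw [Nat.cast_min, Nat.cast_add, ← min_div_div_right (le_of_lt hM), add_div, div_self (ne_of_gt hM)]
    rw [e, sub_self, abs_zero]
    exact le_of_lt hε0
  | sub a b =>
    simp only [evalGrid] at hfix
    simp only [Sat]
    rw [hfix]
    have e : ((x a - x b : ℕ) : ℚ) / m = max ((x a : ℚ) / m - (x b : ℚ) / m) 0 := by
      rcases le_total (x b) (x a) with h | h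
      · rw [Nat.cast_sub h, sub_div]
        rw [max_eq_left]
        rw [← sub_div]
        apply div_nonneg _ (le_of_lt hM)
        have : (x b : ℚ) ≤ (x a : ℚ) := by exact_mod_cast h
        linarith
      · rw [Nat.sub_eq_zero_of_le h, Nat.cast_zero, zero_div]
        rw [max_eq_right]
        rw [← sub_div]
        apply div_nonpos_of_nonpos_of_nonneg _ (le_of_lt hM)
        have : (x a : ℚ) ≤ (x b : ℚ) := by exact_mod_cast h
        linarith
    rw [e, sub_self, abs_zero]
    exact le_of_lt hε0
  | less a b =>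
    simp only [evalGrid] at hfix
    simp only [Sat]
    constructor
    · intro h
      have hlt : (x a : ℚ) / m < (x b : ℚ) / m := by linarith
      have hlt' : x a < x b := by
        have := (div_lt_div_iff_of_pos_right hM).mp hlt
        exact_mod_cast this
      rw [if_pos hlt'] at hfix
      rw [hfix, div_self (ne_of_gt hM)]
      linarith
    · intro h
      have hlt : (x b : ℚ) / m < (x a : ℚ) / m := by linarith
      have hlt' : x b < x a := by
        have := (div_lt_div_iff_of_pos_right hM).mp hlt
        exact_mod_cast this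
      rw [if_neg (by omega)] at hfix
      rw [hfix, Nat.cast_zero, zero_div]
      exact le_of_lt hε0
  | neg a =>
    simp only [evalGrid] at hfix
    simp only [Sat]
    have e : (x z : ℚ) / m = 1 - (x a : ℚ) / m := by
      rw [hfix, Nat.cast_sub (hb a), sub_div, div_self (ne_of_gt hM)]
    rw [e]
    constructor <;> intro h <;> linarith
  | disj a b =>
    simp only [evalGrid] at hfix
    simp only [Sat]
    have e : (x z : ℚ) / m = max ((x a : ℚ) / m) ((x b : ℚ) / m) := by
      rw [hfix, Nat.cast_max, max_div_div_right (le_of_lt hM)]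
    rw [e]
    constructor
    · intro h
      rcases h with h | h
      · exact le_trans h (le_max_left _ _)
      · exact le_trans h (le_max_right _ _)
    · intro h
      exact max_le h.1 h.2
  | conj a b =>
    simp only [evalGrid] at hfix
    simp only [Sat]
    have e : (x z : ℚ) / m = min ((x a : ℚ) / m) ((x b : ℚ) / m) := by
      rw [hfix, Nat.cast_min, min_div_div_right (le_of_lt hM)]
    rw [e]
    constructor
    · intro h
      exact le_min h.1 h.2
    · intro h
      rcases h with h | h
      · exact le_trans (min_le_left _ _) h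
      · exact le_trans (min_le_right _ _) h

theorem layered_spec [Fintype V] [DecidableEq V] (G : V → Option (Gate V))
    (hG : ∀ z g, G z = some g → g.ParamOK) (F : Finset V) (r : V → ℕ) (N : ℕ)
    (hN : ∀ z, r z < N) (hr : ∀ z, z ∉ F → ∀ g, G z = some g → RankOK r z g)
    (m : ℕ) (hm : 0 < m) (ε : ℚ) (hε : 1 / (m : ℚ) ≤ ε) :
    (∀ z, 0 ≤ (layered G F r m N z : ℚ) / (m : ℚ) ∧ (layered G F r m N z : ℚ) / (m : ℚ) ≤ 1) ∧
    (∀ z, z ∉ F → ∀ g, G z = some g →
      Sat ε (fun v => (layered G F r m N v : ℚ) / (m : ℚ)) z g) := by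
  have hinv := inv_layered G hG F r hr m N
  have hM : (0 : ℚ) < (m : ℚ) := by exact_mod_cast hm
  constructor
  · intro z
    constructor
    · exact div_nonneg (Nat.cast_nonneg _) (le_of_lt hM)
    · rw [div_le_one hM]
      exact_mod_cast hinv.bound z
  · intro z hz g hGz
    exact sat_of_fixed m hm ε hε _ hinv.bound z g (hG z g hGz) (hinv.fixed z hz (hN z) g hGz)

end Vale.Agent.Lib.P330
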