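import Vale.Agent.Lib.P330.Defs

set_option autoImplicit false

namespace Vale.Agent.Lib.P330

variable {V : Type}

/-- comparison and logic gates -/
def IsLogic : Gate V → Prop
  | .less _ _ => True
  | .neg _ => True
  | .disj _ _ => True
  | .conj _ _ => True
  | _ => False

def InRange (ε : ℚ) (x : V → ℚ) : Prop := ∀ z, ε ≤ x z ∧ x z ≤ 1 - ε

def Below (G : V → Option (Gate V)) (x y : V → ℚ) : Prop :=
  ∀ z, x z = y z ∨ ((∃ g, G z = some g ∧ IsLogic g) ∧ x z = 1 / 2)

lemma step_range (ε : ℚ) (_h1 : 1 / 4 ≤ ε) (h2 : ε < 1 / 2) (G : V → Option (Gate V))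
    (hG : ∀ z g, G z = some g → g.ParamOK) (x : V → ℚ) : InRange ε (step ε G x) := by
  intro z
  cases hGz : G z with
  | none => simp only [step, hGz]; constructor <;> linarith
  | some g =>
    cases g with
    | const α =>
      simp only [step, hGz]
      exact ⟨le_max_left _ _, max_le (by linarith) (min_le_right _ _)⟩
    | scale α a =>
      have hp := hG z _ hGz
      simp only [Gate.ParamOK] at hp
      simp only [step, hGz]
      exact ⟨le_max_left _ _, max_le (by linarith) (by linarith [hp.2])⟩
    | copy a => simp only [step, hGz]; constructor <;> linarith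
    | add a b => simp only [step, hGz]; constructor <;> linarith
    | sub a b => simp only [step, hGz]; constructor <;> linarith
    | less a b => simp only [step, hGz]; split_ifs <;> constructor <;> linarith
    | neg a => simp only [step, hGz]; split_ifs <;> constructor <;> linarith
    | disj a b => simp only [step, hGz]; split_ifs <;> constructor <;> linarith
    | conj a b => simp only [step, hGz]; split_ifs <;> constructor <;> linarith

lemma agree_of_ne_half (G : V → Option (Gate V)) {x y : V → ℚ} (hxy : Below G x y) (a : V)
    (ha : x a ≠ 1 / 2) : x a = y a := by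
  rcases hxy a with h | h
  · exact h
  · exact absurd h.2 ha

lemma step_mono (ε : ℚ) (h1 : 1 / 4 ≤ ε) (h2 : ε < 1 / 2) (G : V → Option (Gate V))
    {x y : V → ℚ} (hx : InRange ε x) (hxy : Below G x y) :
    Below G (step ε G x) (step ε G y) := by
  intro z
  cases hGz : G z with
  | none => left; simp only [step, hGz]
  | some g =>
    cases g with
    | const α => left; simp only [step, hGz]
    | scale α a => left; simp only [step, hGz]
    | copy a => left; simp only [step, hGz]
    | add a b => left; simp only [step, hGz]
    | sub a b => left; simp only [step, hGz]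
    | less a b =>
      by_cases hA : x a < x b - ε ∨ x b + ε < x a
      · left
        have hxa := hx a
        have hxb := hx b
        have ea : x a = y a := by
          apply agree_of_ne_half G hxy
          intro e
          rcases hA with h | h <;> linarith
        have eb : x b = y b := by
          apply agree_of_ne_half G hxy
          intro e
          rcases hA with h | h <;> linarith
        simp only [step, hGz, ea, eb]
      · right
        refine ⟨⟨_, rfl, trivial⟩, ?_⟩
        rw [not_or, not_lt, not_lt] at hA
        simp only [step, hGz]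
        rw [if_neg (by linarith [hA.1]), if_neg (by linarith [hA.2])]
    | neg a =>
      by_cases hA : x a ≤ ε ∨ 1 - ε ≤ x a
      · left
        have ea : x a = y a := by
          apply agree_of_ne_half G hxy
          intro e
          rcases hA with h | h <;> linarith
        simp only [step, hGz, ea]
      · right
        refine ⟨⟨_, rfl, trivial⟩, ?_⟩
        rw [not_or, not_le, not_le] at hA
        simp only [step, hGz]
        rw [if_neg (by linarith [hA.1]), if_neg (by linarith [hA.2])]
    | disj a b =>
      by_cases hA1 : 1 - ε ≤ x a ∨ 1 - ε ≤ x b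
      · left
        have hA1y : 1 - ε ≤ y a ∨ 1 - ε ≤ y b := by
          rcases hA1 with h | h
          · left
            have ea : x a = y a := agree_of_ne_half G hxy a (by intro e; linarith)
            rw [← ea]; exact h
          · right
            have eb : x b = y b := agree_of_ne_half G hxy b (by intro e; linarith)
            rw [← eb]; exact h
        simp only [step, hGz]
        rw [if_pos hA1, if_pos hA1y]
      · by_cases hA2 : x a ≤ ε ∧ x b ≤ ε
        · left
          have ea : x a = y a := agree_of_ne_half G hxy a (by intro e; linarith [hA2.1])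
          have eb : x b = y b := agree_of_ne_half G hxy b (by intro e; linarith [hA2.2])
          simp only [step, hGz, ea, eb]
        · right
          refine ⟨⟨_, rfl, trivial⟩, ?_⟩
          simp only [step, hGz]
          rw [if_neg hA1, if_neg hA2]
    | conj a b =>
      by_cases hA1 : 1 - ε ≤ x a ∧ 1 - ε ≤ x b
      · left
        have ea : x a = y a := agree_of_ne_half G hxy a (by intro e; linarith [hA1.1])
        have eb : x b = y b := agree_of_ne_half G hxy b (by intro e; linarith [hA1.2])
        simp only [step, hGz, ea, eb]
      · by_cases hA2 : x a ≤ ε ∨ x b ≤ ε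
        · left
          have hy : ¬ (1 - ε ≤ y a ∧ 1 - ε ≤ y b) ∧ (y a ≤ ε ∨ y b ≤ ε) := by
            rcases hA2 with h | h
            · have ea : x a = y a := agree_of_ne_half G hxy a (by intro e; linarith)
              rw [← ea]
              exact ⟨fun hh => by linarith [hh.1], Or.inl h⟩
            · have eb : x b = y b := agree_of_ne_half G hxy b (by intro e; linarith)
              rw [← eb]
              exact ⟨fun hh => by linarith [hh.2], Or.inr h⟩
          simp only [step, hGz]
          rw [if_neg hA1, if_pos hA2, if_neg hy.1, if_pos hy.2]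
        · right
          refine ⟨⟨_, rfl, trivial⟩, ?_⟩
          simp only [step, hGz]
          rw [if_neg hA1, if_neg hA2]

lemma step_first (ε : ℚ) (h1 : 1 / 4 ≤ ε) (h2 : ε < 1 / 2) (G : V → Option (Gate V)) (x : V → ℚ) :
    Below G (step ε G (fun _ => 1 / 2)) (step ε G x) := by
  intro z
  cases hGz : G z with
  | none => left; simp only [step, hGz]
  | some g =>
    cases g with
    | const α => left; simp only [step, hGz]
    | scale α a => left; simp only [step, hGz]
    | copy a => left; simp only [step, hGz]
    | add a b => left; simp only [step, hGz]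
    | sub a b => left; simp only [step, hGz]
    | less a b =>
      right
      refine ⟨⟨_, rfl, trivial⟩, ?_⟩
      simp only [step, hGz]
      rw [if_neg (by linarith), if_neg (by linarith)]
    | neg a =>
      right
      refine ⟨⟨_, rfl, trivial⟩, ?_⟩
      simp only [step, hGz]
      rw [if_neg (by linarith), if_neg (by linarith)]
    | disj a b =>
      right
      refine ⟨⟨_, rfl, trivial⟩, ?_⟩
      simp only [step, hGz]
      rw [if_neg (by intro h; rcases h with h | h <;> linarith),
        if_neg (by intro h; linarith [h.1])]
    | conj a b =>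
      right
      refine ⟨⟨_, rfl, trivial⟩, ?_⟩
      simp only [step, hGz]
      rw [if_neg (by intro h; linarith [h.1]),
        if_neg (by intro h; rcases h with h | h <;> linarith)]

lemma chain (ε : ℚ) (h1 : 1 / 4 ≤ ε) (h2 : ε < 1 / 2) (G : V → Option (Gate V))
    (hG : ∀ z g, G z = some g → g.ParamOK) (k : ℕ) :
    Below G ((step ε G)^[k + 1] (fun _ => 1 / 2)) ((step ε G)^[k + 2] (fun _ => 1 / 2)) := by
  induction k with
  | zero =>
    simp only [Function.iterate_succ, Function.iterate_zero, Function.comp_apply, id_eq]
    exact step_first ε h1 h2 G _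
  | succ k ih =>
    rw [Function.iterate_succ_apply' (step ε G) (k + 1), Function.iterate_succ_apply' (step ε G) (k + 2)]
    apply step_mono ε h1 h2 G _ ih
    rw [Function.iterate_succ_apply' (step ε G) k]
    exact step_range ε h1 h2 G hG _

open Classical in
/-- the undecided logic nodes -/
noncomputable def undecided [Fintype V] (G : V → Option (Gate V)) (x : V → ℚ) : Finset V :=
  Finset.univ.filter (fun z => (∃ g, G z = some g ∧ IsLogic g) ∧ x z = 1 / 2)

lemma undecided_card_lt [Fintype V] (G : V → Option (Gate V)) {x y : V → ℚ} (hxy : Below G x y)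
    (hne : x ≠ y) : (undecided G y).card < (undecided G x).card := by
  classical
  apply Finset.card_lt_card
  rw [Finset.ssubset_iff_of_subset]
  · obtain ⟨z, hz⟩ := Function.ne_iff.mp hne
    refine ⟨z, ?_, ?_⟩
    · rcases hxy z with h | h
      · exact absurd h hz
      · simp only [undecided, Finset.mem_filter, Finset.mem_univ, true_and]
        exact h
    · simp only [undecided, Finset.mem_filter, Finset.mem_univ, true_and]
      intro hh
      rcases hxy z with h | h
      · exact hz h
      · exact hz (by rw [h.2, hh.2])
  · intro z hz
    simp only [undecided, Finset.mem_filter, Finset.mem_univ, true_and] at hz ⊢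
    refine ⟨hz.1, ?_⟩
    rcases hxy z with h | h
    · rw [h]; exact hz.2
    · exact h.2

lemma stable_or_count [Fintype V] (ε : ℚ) (h1 : 1 / 4 ≤ ε) (h2 : ε < 1 / 2) (G : V → Option (Gate V))
    (hG : ∀ z g, G z = some g → g.ParamOK) (k : ℕ) :
    (step ε G)^[k + 1] (fun _ => 1 / 2) = (step ε G)^[k + 2] (fun _ => 1 / 2) ∨
    (undecided G ((step ε G)^[k + 1] (fun _ => 1 / 2))).card + k ≤ Fintype.card V := by
  induction k with
  | zero =>
    right
    simp only [add_zero]
    exact Finset.card_le_univ _
  | succ k ih =>
    rcases ih with ih | ih
    · left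
      rw [Function.iterate_succ_apply' (step ε G) (k + 1), Function.iterate_succ_apply' (step ε G) (k + 2),
        ← ih]
    · by_cases he : (step ε G)^[k + 1] (fun _ => 1 / 2) = (step ε G)^[k + 2] (fun _ => 1 / 2)
      · left
        rw [Function.iterate_succ_apply' (step ε G) (k + 1),
          Function.iterate_succ_apply' (step ε G) (k + 2), ← he]
      · right
        have hlt : (undecided G ((step ε G)^[k + 1 + 1] (fun _ => 1 / 2))).card
            < (undecided G ((step ε G)^[k + 1] (fun _ => 1 / 2))).card :=
          undecided_card_lt G (chain ε h1 h2 G hG k) he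
        omega

lemma solve_fixed [Fintype V] (ε : ℚ) (h1 : 1 / 4 ≤ ε) (h2 : ε < 1 / 2) (G : V → Option (Gate V))
    (hG : ∀ z g, G z = some g → g.ParamOK) :
    step ε G ((step ε G)^[Fintype.card V + 1] (fun _ => 1 / 2))
      = (step ε G)^[Fintype.card V + 1] (fun _ => 1 / 2) := by
  rw [← Function.iterate_succ_apply' (step ε G) (Fintype.card V + 1)]
  rcases stable_or_count ε h1 h2 G hG (Fintype.card V) with h | h
  · exact h.symm
  · by_contra hne
    have := undecided_card_lt G (chain ε h1 h2 G hG (Fintype.card V)) (fun e => hne e.symm)
    omega

lemma fixed_sat (ε : ℚ) (h1 : 1 / 4 ≤ ε) (h2 : ε < 1 / 2) (G : V → Option (Gate V))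
    (hG : ∀ z g, G z = some g → g.ParamOK) (x : V → ℚ) (hx : InRange ε x)
    (hfix : step ε G x = x) (z : V) (g : Gate V) (hGz : G z = some g) : Sat ε x z g := by
  have hz : step ε G x z = x z := congrFun hfix z
  cases g with
  | const α =>
    have hp := hG z _ hGz
    simp only [Gate.ParamOK] at hp
    simp only [step, hGz] at hz
    simp only [Sat]
    rw [← hz, abs_le]
    constructor
    · have : min α (1 - ε) ≤ max ε (min α (1 - ε)) := le_max_right _ _
      have : α - ε ≤ min α (1 - ε) := le_min (by linarith) (by linarith [hp.2])
      linarith
    · have : max ε (min α (1 - ε)) ≤ α + ε :=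
        max_le (by linarith [hp.1]) (le_trans (min_le_left _ _) (by linarith))
      linarith
  | scale α a =>
    have hp := hG z _ hGz
    simp only [Gate.ParamOK] at hp
    simp only [step, hGz] at hz
    simp only [Sat]
    have hxa := hx a
    have m1 : α * ε ≤ α * x a := mul_le_mul_of_nonneg_left hxa.1 hp.1
    have m2 : α * x a ≤ α * (1 - ε) := mul_le_mul_of_nonneg_left hxa.2 hp.1
    have m3 : α * (1 / 2 - ε) ≤ 1 * (1 / 4) :=
      mul_le_mul hp.2 (by linarith) (by linarith) (by norm_num)
    have m4 : 0 ≤ α * ε := mul_nonneg hp.1 (by linarith)
    rw [← hz, abs_le]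
    constructor
    · have : α / 2 ≤ max ε (α / 2) := le_max_right _ _
      nlinarith
    · have : max ε (α / 2) ≤ α * x a + ε := max_le (by linarith) (by nlinarith)
      linarith
  | copy a =>
    simp only [step, hGz] at hz
    simp only [Sat]
    have hxa := hx a
    rw [← hz, abs_le]
    constructor <;> linarith
  | add a b =>
    simp only [step, hGz] at hz
    simp only [Sat]
    have hxa := hx a
    have hxb := hx b
    rw [← hz, abs_le]
    constructor
    · have : min (x a + x b) 1 ≤ 1 := min_le_right _ _
      linarith
    · have : 1 - 2 * ε ≤ min (x a + x b) 1 := le_min (by linarith) (by linarith)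
      linarith
  | sub a b =>
    simp only [step, hGz] at hz
    simp only [Sat]
    have hxa := hx a
    have hxb := hx b
    rw [← hz, abs_le]
    constructor
    · have : max (x a - x b) 0 ≤ 2 * ε := max_le (by linarith) (by linarith)
      linarith
    · have : (0 : ℚ) ≤ max (x a - x b) 0 := le_max_right _ _
      linarith
  | less a b =>
    simp only [step, hGz] at hz
    simp only [Sat]
    constructor
    · intro hA
      rw [if_pos hA] at hz
      linarith
    · intro hA
      rw [if_neg (by linarith), if_pos hA] at hz
      linarith
  | neg a =>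
    simp only [step, hGz] at hz
    simp only [Sat]
    constructor
    · intro hA
      rw [if_pos hA] at hz
      linarith
    · intro hA
      rw [if_neg (by linarith), if_pos hA] at hz
      linarith
  | disj a b =>
    simp only [step, hGz] at hz
    simp only [Sat]
    constructor
    · intro hA
      rw [if_pos hA] at hz
      linarith
    · intro hA
      rw [if_neg (by intro h; rcases h with h | h <;> linarith [hA.1, hA.2]), if_pos hA] at hz
      linarith
  | conj a b =>
    simp only [step, hGz] at hz
    simp only [Sat]
    constructor
    · intro hA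
      rw [if_pos hA] at hz
      linarith
    · intro hA
      rw [if_neg (by intro h; rcases hA with h' | h' <;> linarith [h.1, h.2]), if_pos hA] at hz
      linarith

lemma half_sat (ε : ℚ) (h2 : 1 / 2 ≤ ε) (G : V → Option (Gate V))
    (hG : ∀ z g, G z = some g → g.ParamOK) (z : V) (g : Gate V) (hGz : G z = some g) :
    Sat ε (fun _ => (1 / 2 : ℚ)) z g := by
  cases g with
  | const α =>
    have hp := hG z _ hGz
    simp only [Gate.ParamOK] at hp
    simp only [Sat]
    rw [abs_le]
    constructor <;> linarith [hp.1, hp.2]
  | scale α a =>
    have hp := hG z _ hGz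
    simp only [Gate.ParamOK] at hp
    simp only [Sat]
    rw [abs_le]
    constructor <;> linarith [hp.1, hp.2]
  | copy a =>
    simp only [Sat]
    rw [abs_le]
    constructor <;> linarith
  | add a b =>
    simp only [Sat]
    have e : min ((1 / 2 : ℚ) + 1 / 2) 1 = 1 := by norm_num
    rw [e, abs_le]
    constructor <;> linarith
  | sub a b =>
    simp only [Sat]
    have e : max ((1 / 2 : ℚ) - 1 / 2) 0 = 0 := by norm_num
    rw [e, abs_le]
    constructor <;> linarith
  | less a b =>
    simp only [Sat]
    constructor <;> intro h <;> linarith
  | neg a =>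
    simp only [Sat]
    constructor <;> intro h <;> linarith
  | disj a b =>
    simp only [Sat]
    constructor <;> intro h <;> linarith
  | conj a b =>
    simp only [Sat]
    constructor <;> intro h <;> linarith

theorem solve_spec [Fintype V] (ε : ℚ) (h1 : 1 / 4 ≤ ε) (G : V → Option (Gate V))
    (hG : ∀ z g, G z = some g → g.ParamOK) :
    (∀ z, 0 ≤ solve ε G z ∧ solve ε G z ≤ 1) ∧
    (∀ z g, G z = some g → Sat ε (solve ε G) z g) := by
  by_cases h2 : ε < 1 / 2
  · have hs : solve ε G = (step ε G)^[Fintype.card V + 1] (fun _ => 1 / 2) := by
      simp only [solve, if_pos h2]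
    have hr : InRange ε (solve ε G) := by
      rw [hs, Function.iterate_succ_apply' (step ε G) (Fintype.card V)]
      exact step_range ε h1 h2 G hG _
    refine ⟨fun z => ⟨by linarith [(hr z).1], by linarith [(hr z).2]⟩, ?_⟩
    intro z g hGz
    apply fixed_sat ε h1 h2 G hG _ hr _ z g hGz
    rw [hs]
    exact solve_fixed ε h1 h2 G hG
  · have hs : solve ε G = fun _ => (1 / 2 : ℚ) := by
      simp only [solve, if_neg h2]
    rw [hs]
    refine ⟨fun z => by norm_num, ?_⟩
    intro z g hGz
    exact half_sat ε (by linarith) G hG z g hGz

end Vale.Agent.Lib.P330
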